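import Vale.Agent.Lib.P348.helper23.Basics

/-!
Pool job P348-K1: the spin-one ring Hamiltonian is Hermitian and commutes with the total third
component of the spin; the raising operator at a site raises the latter by one.
-/

namespace Vale.Agent.Lib.P348.H44

open Matrix
open Vale.Agent.Lib.P361 Vale.Agent.Lib.P348

/-- A ring identity: from `s m - m s = -s` to `m s = s m + s`. -/
theorem comm_aux {R : Type*} [Ring R] (m s : R) (h : s * m - m * s = -s) :
    m * s = s * m + s := by
  have h2 := sub_eq_iff_eq_add.mp h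
  rw [h2]
  abel

/-- A sum of elements commuting with `m` commutes with `m`. -/
theorem sum_comm_aux {R : Type*} [Ring R] {ι : Type*} (s : Finset ι) (b : ι → R) (m : R)
    (h : ∀ j, b j * m - m * b j = 0) : (∑ j ∈ s, b j) * m = m * ∑ j ∈ s, b j := by
  rw [Finset.sum_mul, Finset.mul_sum]
  exact Finset.sum_congr rfl (fun j _ => sub_eq_zero.mp (h j))

/-- The total third component is the abstract magnetization of the concrete spin system. -/
theorem totZ_eq (L : ℕ) : totZ L = Mab (cSz (Λ := Fin L) 3) := by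
  rw [totZ_def]
  rfl

/-- The ring Hamiltonian as a sum of abstract bonds. -/
theorem ringH_eq (L : ℕ) :
    ringH L = ∑ j : Fin L, bond (cSp (Λ := Fin L) 3) (cSz (Λ := Fin L) 3) j (finRotate L j) := by
  rw [defs_aux_ringH]
  exact Finset.sum_congr rfl (fun j _ => spinDot_eq_bond 3 j (finRotate L j))

/-- Every bond of the concrete spin system is Hermitian, also when the two sites coincide. -/
theorem bond_hermitian_all (L : ℕ) (x y : Fin L) :
    (bond (cSp (Λ := Fin L) 3) (cSz (Λ := Fin L) 3) x y).IsHermitian := by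
  have hS := spinSys (Λ := Fin L) 3
  by_cases hxy : x = y
  · subst hxy
    show (cSz 3 x * cSz 3 x + (1 / 2 : ℂ) • (cSp 3 x * (cSp 3 x)ᴴ + (cSp 3 x)ᴴ * cSp 3 x))ᴴ
      = cSz 3 x * cSz 3 x + (1 / 2 : ℂ) • (cSp 3 x * (cSp 3 x)ᴴ + (cSp 3 x)ᴴ * cSp 3 x)
    have h2 : star (1 / 2 : ℂ) = 1 / 2 := by simp
    rw [conjTranspose_add, conjTranspose_smul, conjTranspose_add, conjTranspose_mul,
      conjTranspose_mul, conjTranspose_mul, conjTranspose_conjTranspose, (hS.zH x).eq, h2]
  · exact hS.bond_hermitian hxy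

theorem ringH_isHermitian (L : ℕ) : (ringH L).IsHermitian := by
  rw [ringH_eq]
  show (∑ j : Fin L, bond (cSp (Λ := Fin L) 3) (cSz (Λ := Fin L) 3) j (finRotate L j))ᴴ
    = ∑ j : Fin L, bond (cSp (Λ := Fin L) 3) (cSz (Λ := Fin L) 3) j (finRotate L j)
  rw [conjTranspose_sum]
  exact Finset.sum_congr rfl (fun j _ => (bond_hermitian_all L j _).eq)

theorem totZ_isHermitian (L : ℕ) : (totZ L).IsHermitian := by
  rw [totZ_eq]
  exact (spinSys (Λ := Fin L) 3).Mab_hermitian

theorem ringH_mul_totZ (L : ℕ) : ringH L * totZ L = totZ L * ringH L := by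
  rw [ringH_eq, totZ_eq]
  exact sum_comm_aux Finset.univ _ _
    (fun j => (spinSys (Λ := Fin L) 3).cm_bond_M j (finRotate L j))

theorem totZ_mul_raise {L : ℕ} (j : Fin L) :
    totZ L * raise j = raise j * totZ L + raise j := by
  have hR : raise j = cSp (Λ := Fin L) 3 j := by
    rw [raise_def]
    rfl
  rw [totZ_eq, hR]
  exact comm_aux _ _ ((spinSys (Λ := Fin L) 3).cm_p_M j)

end Vale.Agent.Lib.P348.H44
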